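import Vale.Agent.P092.H268.Rp.JM

/-!
P092 (helper268), project RP, row P1, part 3: in a triple `[H, X] = 2 X`, `[H, Y] = - 2 Y`,
`[X, Y] = H` of operators of a finite dimensional space (characteristic zero) `X`, `Y` are
nilpotent and `H` is diagonalizable with integer eigenvalues.
-/

set_option linter.all false

open Module

namespace Vale.Agent.P092.H268.Rp

open Vale.Agent.P092.H213.Rp

section End

variable {k V : Type*} [Field k] [CharZero k] [AddCommGroup V] [Module k V]

/-- triples of operators -/
structure Tr (X Y H : Module.End k V) : Prop where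
  hx : H * X - X * H = 2 * X
  hy : H * Y - Y * H = -(2 * Y)
  xy : X * Y - Y * X = H

/-- eigenvectors of `ad H` in the operators are nilpotent -/
theorem nil_of_eig [Module.Finite k V] {X H : Module.End k V} {c : k} (hc : c ≠ 0)
    (h : H * X - X * H = c • X) : IsNilpotent X := by
  by_contra hne
  have hX : ∀ n : ℕ, X ^ n ≠ 0 := fun n hn => hne ⟨n, hn⟩
  let f : Module.End k (Module.End k V) := LinearMap.mulLeft k H - LinearMap.mulRight k H
  have hf : ∀ T, f T = H * T - T * H := fun T => rfl
  have hpow : ∀ n : ℕ, f (X ^ n) = ((n : k) * c) • X ^ n := by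
    intro n
    induction n with
    | zero => rw [hf]; simp
    | succ n ih =>
      rw [hf] at ih ⊢
      have e : H * X ^ (n + 1) - X ^ (n + 1) * H = (H * X ^ n - X ^ n * H) * X +
          X ^ n * (H * X - X * H) := by rw [pow_succ]; noncomm_ring
      rw [e, ih, h, smul_mul_assoc, mul_smul_comm, ← pow_succ, ← add_smul]
      congr 1
      push_cast
      ring
  have hinj : Function.Injective fun n : ℕ => ((n : k) * c) := by
    intro a b hab
    exact Nat.cast_injective (mul_right_cancel₀ hc hab)
  have hli : LinearIndependent k fun n : ℕ => X ^ n :=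
    Module.End.eigenvectors_linearIndependent' f (fun n : ℕ => ((n : k) * c)) hinj
      (fun n : ℕ => X ^ n) fun n => ⟨Module.End.mem_eigenspace_iff.2 (hpow n), hX n⟩
  have : Finite ℕ := hli.finite
  exact not_finite ℕ

namespace Tr

variable {X Y H : Module.End k V} (t : Tr X Y H)

include t

theorem symm : Tr Y X (-H) where
  hx := by rw [neg_mul, mul_neg, sub_neg_eq_add, neg_add_eq_sub, ← neg_sub, t.hy, neg_neg]
  hy := by rw [neg_mul, mul_neg, sub_neg_eq_add, neg_add_eq_sub, ← neg_sub, t.hx]
  xy := by rw [← t.xy, neg_sub]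

theorem nilX [Module.Finite k V] : IsNilpotent X :=
  nil_of_eig (c := 2) two_ne_zero (by rw [t.hx, two_mul, two_smul])

theorem nilY [Module.Finite k V] : IsNilpotent Y :=
  nil_of_eig (c := -2) (neg_ne_zero.2 two_ne_zero) (by rw [t.hy, two_mul, neg_smul, two_smul])

theorem ap_hx (u : V) : H (X u) = X (H u) + (2 : k) • X u := by
  have := congrArg (fun T : Module.End k V => T u) t.hx
  simp only [LinearMap.sub_apply, Module.End.mul_apply, two_mul, LinearMap.add_apply] at this
  rw [two_smul, ← this]; abel

theorem ap_hy (u : V) : H (Y u) = Y (H u) - (2 : k) • Y u := by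
  have := congrArg (fun T : Module.End k V => T u) t.hy
  simp only [LinearMap.sub_apply, Module.End.mul_apply, two_mul, LinearMap.add_apply,
    LinearMap.neg_apply] at this
  rw [two_smul, sub_eq_add_neg, ← this]; abel

theorem ap_xy (u : V) : X (Y u) = Y (X u) + H u := by
  have := congrArg (fun T : Module.End k V => T u) t.xy
  simp only [LinearMap.sub_apply, Module.End.mul_apply] at this
  rw [← this]; abel

theorem eigX {u : V} {μ : k} (hu : H u = μ • u) : H (X u) = (μ + 2) • X u := by
  rw [t.ap_hx, hu, map_smul, add_smul]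

theorem eigY {u : V} {μ : k} (hu : H u = μ • u) : H (Y u) = (μ - 2) • Y u := by
  rw [t.ap_hy, hu, map_smul, sub_smul]

theorem eigY_pow {u : V} {μ : k} (hu : H u = μ • u) (j : ℕ) :
    H ((Y ^ j) u) = (μ - 2 * j) • (Y ^ j) u := by
  induction j with
  | zero => simpa using hu
  | succ j ih =>
    rw [pow_succ', Module.End.mul_apply, t.eigY ih]
    congr 1
    push_cast
    ring

theorem eigX_pow {u : V} {μ : k} (hu : H u = μ • u) (j : ℕ) :
    H ((X ^ j) u) = (μ + 2 * j) • (X ^ j) u := by
  induction j with
  | zero => simpa using hu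
  | succ j ih =>
    rw [pow_succ', Module.End.mul_apply, t.eigX ih]
    congr 1
    push_cast
    ring

theorem prim {u : V} {μ : k} (hX : X u = 0) (hu : H u = μ • u) (j : ℕ) :
    X ((Y ^ (j + 1)) u) = ((j + 1) * (μ - j)) • (Y ^ j) u := by
  induction j with
  | zero =>
    rw [zero_add, pow_one, t.ap_xy, hX, map_zero, zero_add, hu]
    simp
  | succ j ih =>
    have h1 : (Y ^ (j + 1 + 1)) u = Y ((Y ^ (j + 1)) u) := by rw [pow_succ']; rfl
    rw [h1, t.ap_xy, ih, map_smul, t.eigY_pow hu]
    have h2 : Y ((Y ^ j) u) = (Y ^ (j + 1)) u := by rw [pow_succ']; rfl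
    rw [h2, ← add_smul]
    congr 1
    push_cast
    ring

theorem prim_pow {u : V} {μ : k} (hX : X u = 0) (hu : H u = μ • u) (i : ℕ) :
    (X ^ i) ((Y ^ i) u) = (∏ j ∈ Finset.range i, ((j + 1) * (μ - j))) • u := by
  induction i with
  | zero => simp
  | succ i ih =>
    rw [pow_succ X, Module.End.mul_apply, t.prim hX hu, map_smul, ih, smul_smul,
      Finset.prod_range_succ, mul_comm]

/-- **`H` is diagonalizable with integer eigenvalues.** -/
theorem iSup_eq_top [Module.Finite k V] : ⨆ i : ℤ, H.eigenspace (i : k) = ⊤ := by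
  obtain ⟨N, hN⟩ := t.nilX
  set S : Submodule k V := ⨆ i : ℤ, H.eigenspace (i : k) with hS
  have hmem : ∀ (i : ℤ) (u : V), H u = (i : k) • u → u ∈ S := fun i u hu =>
    Submodule.mem_iSup_of_mem i (Module.End.mem_eigenspace_iff.2 hu)
  have key : ∀ i : ℕ, ∀ v, (X ^ i) v = 0 → v ∈ S := by
    intro i
    induction i with
    | zero => intro v hv; rw [pow_zero, Module.End.one_apply] at hv; rw [hv]; exact S.zero_mem
    | succ i ih =>
      intro v hv
      set u := (X ^ i) v with hu
      have hXu : X u = 0 := by rw [hu, ← Module.End.mul_apply, ← pow_succ']; exact hv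
      have hker : ∀ z, X z = 0 → X (H z) = 0 := by
        intro z hz
        have := t.ap_hx z
        rw [hz, map_zero, smul_zero, add_zero] at this
        exact this.symm
      have huQ : u ∈ S.map (X ^ i) := by
        refine mem_of_PR hker (i := i) ?_ N u hXu ?_
        · intro n hn z hz hHz
          have h1 := t.prim_pow hz hHz i
          have hc : (∏ j ∈ Finset.range i, (((j : k) + 1) * ((n : k) - j))) ≠ 0 := by
            rw [Finset.prod_ne_zero_iff]
            intro j hj
            have hj' := Finset.mem_range.1 hj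
            refine mul_ne_zero ?_ ?_
            · exact_mod_cast (Nat.cast_ne_zero (R := k)).2 (Nat.succ_ne_zero j)
            · rw [sub_ne_zero]
              intro h
              have := Nat.cast_injective h
              omega
          refine ⟨(∏ j ∈ Finset.range i, (((j : k) + 1) * ((n : k) - j)))⁻¹ • (Y ^ i) z, ?_, ?_⟩
          · refine S.smul_mem _ (hmem ((n : ℤ) - 2 * i) _ ?_)
            rw [t.eigY_pow hHz]
            push_cast
            rfl
          · rw [map_smul, h1, smul_smul, inv_mul_cancel₀ hc, one_smul]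
        · obtain ⟨-, v', hv'⟩ := PR_mem t.hx t.xy i N u v hXu rfl
          rw [← hv', pow_add, hN, mul_zero, LinearMap.zero_apply]
      obtain ⟨s, hs, hsu⟩ := huQ
      have h2 : v - s ∈ S := ih _ (by rw [map_sub, hsu, ← hu, sub_self])
      have h3 : v = (v - s) + s := by abel
      rw [h3]
      exact S.add_mem h2 hs
  rw [eq_top_iff]
  intro v _
  exact key N v (by rw [hN]; rfl)

end Tr

end End

section lie

variable {k L : Type} [Field k] [CharZero k] [LieRing L] [LieAlgebra k L] [Module.Finite k L]

theorem tr_of {h x y : L} (t : IsSl2Triple h x y) :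
    Tr (LieAlgebra.ad k L x) (LieAlgebra.ad k L y) (LieAlgebra.ad k L h) where
  hx := by rw [ad_bracket, t.lie_h_e_smul k, map_smul, two_mul, two_smul]
  hy := by rw [ad_bracket, t.lie_lie_smul_f k, map_neg, map_smul, two_mul, two_smul]
  xy := by rw [ad_bracket, t.lie_e_f]

theorem nil_e {h x y : L} (t : IsSl2Triple h x y) : Nil k x := (tr_of (k := k) t).nilX

theorem nil_f {h x y : L} (t : IsSl2Triple h x y) : Nil k y := (tr_of (k := k) t).nilY

/-- **the semisimple element of a triple is split with integral eigenvalues** -/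
theorem spl {h x y : L} (t : IsSl2Triple h x y) : Spl k h := (tr_of (k := k) t).iSup_eq_top

end lie

end Vale.Agent.P092.H268.Rp
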