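import Vale.Agent.P092.H268.Rp.Spl

/-!
P092 (helper268), project RP, row P1, part 4: the graded Jacobson–Morozov theorem.
-/

set_option linter.all false

open Module

namespace Vale.Agent.P092.H268.Rp

open Vale.Agent.P092.H213.Rp

variable {k L : Type} [Field k] [CharZero k] [LieRing L] [LieAlgebra k L] [Module.Finite k L]

theorem mem_eig {s x : L} {c : k} : x ∈ (LieAlgebra.ad k L s).eigenspace c ↔ ⁅s, x⁆ = c • x :=
  Module.End.mem_eigenspace_iff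

theorem eig_lie {s x y : L} {c d : k} (hx : ⁅s, x⁆ = c • x) (hy : ⁅s, y⁆ = d • y) :
    ⁅s, ⁅x, y⁆⁆ = (c + d) • ⁅x, y⁆ := by
  have h3 : ⁅s, ⁅x, y⁆⁆ = ⁅⁅s, x⁆, y⁆ + ⁅x, ⁅s, y⁆⁆ := by rw [lie_lie]; abel
  rw [h3, hx, hy, smul_lie, lie_smul, add_smul]

/-- homogeneous version of `mem_range_sq` -/
theorem mem_range_sq_gr [LieAlgebra.IsKilling k L] {s : L}
    (hs : ⨆ μ : k, (LieAlgebra.ad k L s).eigenspace μ = ⊤) {c : k} {x : L}
    (hx : ⁅s, x⁆ = c • x) (hn : Nil k x) : ∃ w, ⁅s, w⁆ = (-c) • w ∧ ⁅x, ⁅x, w⁆⁆ = x := by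
  obtain ⟨w, hw⟩ := mem_range_sq hn
  have hw' : w ∈ ⨆ μ : k, (LieAlgebra.ad k L s).eigenspace μ := by rw [hs]; trivial
  rw [Submodule.mem_iSup_iff_exists_finsupp] at hw'
  obtain ⟨f, hf, hsum⟩ := hw'
  refine ⟨f (-c), mem_eig.1 (hf _), ?_⟩
  have hsq : ∀ μ, ⁅x, ⁅x, f μ⁆⁆ ∈ (LieAlgebra.ad k L s).eigenspace (μ + 2 * c) := by
    intro μ
    rw [mem_eig]
    have h1 := eig_lie hx (eig_lie hx (mem_eig.1 (hf μ)))
    rw [h1]
    congr 1
    ring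
  have hind := Module.End.eigenspaces_iSupIndep (LieAlgebra.ad k L s)
  have hd := hind c
  rw [Submodule.disjoint_def] at hd
  have h1 : ⁅x, ⁅x, f (-c)⁆⁆ - x ∈ (LieAlgebra.ad k L s).eigenspace c := by
    refine Submodule.sub_mem _ ?_ (mem_eig.2 hx)
    have := hsq (-c)
    rwa [show -c + 2 * c = c by ring] at this
  have h2 : ⁅x, ⁅x, f (-c)⁆⁆ - x ∈ ⨆ (j : k) (_ : j ≠ c), (LieAlgebra.ad k L s).eigenspace j := by
    classical
    have h3 : x = ∑ μ ∈ insert (-c) f.support, ⁅x, ⁅x, f μ⁆⁆ := by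
      have h4 : w = ∑ μ ∈ insert (-c) f.support, f μ := by
        rw [← hsum, Finsupp.sum]
        refine Finset.sum_subset (Finset.subset_insert _ _) fun μ _ hμ => ?_
        exact Finsupp.notMem_support_iff.1 hμ
      conv_lhs => rw [← hw, h4]
      have h5 : ⁅x, ⁅x, ∑ μ ∈ insert (-c) f.support, f μ⁆⁆ =
          (LieAlgebra.ad k L x * LieAlgebra.ad k L x) (∑ μ ∈ insert (-c) f.support, f μ) := rfl
      rw [h5, map_sum]
      rfl
    have h6 : ⁅x, ⁅x, f (-c)⁆⁆ - x = -∑ μ ∈ (insert (-c) f.support).erase (-c), ⁅x, ⁅x, f μ⁆⁆ := by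
      have h7 := Finset.add_sum_erase (insert (-c) f.support) (fun μ => ⁅x, ⁅x, f μ⁆⁆)
        (Finset.mem_insert_self _ _)
      have h8 : x = ⁅x, ⁅x, f (-c)⁆⁆ + ∑ μ ∈ (insert (-c) f.support).erase (-c), ⁅x, ⁅x, f μ⁆⁆ := by
        rw [h7]; exact h3
      nth_rewrite 3 [h8]
      abel
    rw [h6]
    refine Submodule.neg_mem _ (Submodule.sum_mem _ fun μ hμ => ?_)
    have hne : μ ≠ -c := Finset.ne_of_mem_erase hμ
    refine Submodule.mem_iSup_of_mem (μ + 2 * c) (Submodule.mem_iSup_of_mem ?_ (hsq μ))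
    intro h
    apply hne
    linear_combination h
  exact sub_eq_zero.1 (hd _ h1 h2)

/-- **Jacobson–Morozov, graded form** (helper45's literal). -/
theorem jm_gr [LieAlgebra.IsKilling k L] (s : L)
    (hs : ⨆ μ : k, (LieAlgebra.ad k L s).eigenspace μ = ⊤) {c : k} {x : L}
    (hx : ⁅s, x⁆ = c • x) (hn : Nil k x) (h0 : x ≠ 0) :
    ∃ h y, IsSl2Triple h x y ∧ ⁅s, h⁆ = 0 ∧ ⁅s, y⁆ = -(c • y) ∧ Spl k h := by
  obtain ⟨w, hw, hxw⟩ := mem_range_sq_gr hs hx hn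
  set w' := (-2 : k) • w with hw'
  have hsw' : ⁅s, w'⁆ = (-c) • w' := by rw [hw', lie_smul, hw, smul_comm]
  have hh0 : ⁅s, ⁅x, w'⁆⁆ = 0 := by
    rw [eig_lie hx hsw', add_neg_cancel, zero_smul]
  obtain ⟨y, hy, ht⟩ := jm_in hn h0 ((LieAlgebra.ad k L s).eigenspace (-c)) (w := w')
    (mem_eig.2 hsw') (by rw [hw', lie_smul, lie_smul, hxw]) (by
      intro z hz
      rw [mem_eig] at hz ⊢
      have h1 : ⁅s, ⁅x, w'⁆⁆ = (0 : k) • ⁅x, w'⁆ := by rw [hh0, zero_smul]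
      rw [eig_lie h1 hz, zero_add])
  refine ⟨_, y, ht, hh0, ?_, spl ht⟩
  rw [mem_eig.1 hy, neg_smul]

end Vale.Agent.P092.H268.Rp
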