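import Vale.Agent.P092.H268.Rp.Tri
import Vale.Agent.P092.H213.Rp.Defs

/-!
P092 (helper268), project RP, row P1, part 2: the Jacobson–Morozov theorem (homogeneous form) for
Lie algebras with nondegenerate Killing form.
-/

set_option linter.all false

open Module

namespace Vale.Agent.P092.H268.Rp

open Vale.Agent.P092.H213.Rp

variable {k L : Type} [Field k] [CharZero k] [LieRing L] [LieAlgebra k L] [Module.Finite k L]

theorem ad_bracket (x y : L) : LieAlgebra.ad k L x * LieAlgebra.ad k L y -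
    LieAlgebra.ad k L y * LieAlgebra.ad k L x = LieAlgebra.ad k L ⁅x, y⁆ := by
  refine LinearMap.ext fun z => ?_
  show ⁅x, ⁅y, z⁆⁆ - ⁅y, ⁅x, z⁆⁆ = ⁅⁅x, y⁆, z⁆
  rw [lie_lie]

theorem killing_inv (x a z : L) : killingForm k L ⁅x, a⁆ z = -killingForm k L a ⁅x, z⁆ := by
  rw [← lie_skew, map_neg, LinearMap.neg_apply]
  congr 1
  exact LieModule.traceForm_apply_lie_apply k L L a x z

/-- `x` is in the image of `(ad x)²`. -/
theorem mem_range_sq [LieAlgebra.IsKilling k L] {x : L} (hx : Nil k x) :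
    ∃ w, ⁅x, ⁅x, w⁆⁆ = x := by
  set B := killingForm k L with hBdef
  have hB : LinearMap.BilinForm.Nondegenerate B := LieAlgebra.IsKilling.killingForm_nondegenerate k L
  have hsymm : ∀ a b, B a b = B b a := fun a b => LieModule.traceForm_comm k L L a b
  have hR : B.IsRefl := fun a b h => by rw [hsymm]; exact h
  set T : Module.End k L := LieAlgebra.ad k L x * LieAlgebra.ad k L x with hT
  have hTz : ∀ a z, B (T a) z = B a (T z) := by
    intro a z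
    show killingForm k L ⁅x, ⁅x, a⁆⁆ z = killingForm k L a ⁅x, ⁅x, z⁆⁆
    rw [killing_inv, killing_inv, neg_neg]
  have hmem : x ∈ LinearMap.range T := by
    rw [← LinearMap.BilinForm.orthogonal_orthogonal hB hR (LinearMap.range T)]
    rw [LinearMap.BilinForm.mem_orthogonal_iff]
    intro z hz
    rw [LinearMap.BilinForm.mem_orthogonal_iff] at hz
    have h0 : T z = 0 := by
      refine hB.2 _ fun a => ?_
      rw [← hTz]
      exact hz (T a) ⟨a, rfl⟩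
    show killingForm k L z x = 0
    rw [LieModule.traceForm_comm, LieModule.traceForm_apply_apply]
    have h1 : IsNilpotent (LieAlgebra.ad k L x * LieAlgebra.ad k L z) := by
      refine isNilpotent_mul (ad_bracket x z) ?_ hx
      rw [← sub_eq_zero, ad_bracket]
      have : ⁅x, ⁅x, z⁆⁆ = 0 := h0
      rw [this, map_zero]
    exact (LinearMap.isNilpotent_trace_of_isNilpotent h1).eq_zero
  obtain ⟨w, hw⟩ := hmem
  exact ⟨w, hw⟩

/-- `H = ad ⁅x, w⁆` preserves `ker (ad x)` -/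
theorem ker_stable {x h : L} (h2 : ⁅h, x⁆ = (2 : k) • x) {z : L} (hz : ⁅x, z⁆ = 0) :
    ⁅x, ⁅h, z⁆⁆ = 0 := by
  have h3 : ⁅x, ⁅h, z⁆⁆ = ⁅⁅x, h⁆, z⁆ + ⁅h, ⁅x, z⁆⁆ := by rw [lie_lie]; abel
  rw [h3, hz, lie_zero, add_zero, ← lie_skew x h, h2, neg_lie, smul_lie, hz, smul_zero, neg_zero]

theorem rel_of {x w h : L} (hh : ⁅x, w⁆ = h) (h2 : ⁅h, x⁆ = (2 : k) • x) :
    LieAlgebra.ad k L h * LieAlgebra.ad k L x - LieAlgebra.ad k L x * LieAlgebra.ad k L h =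
      2 * LieAlgebra.ad k L x ∧
    LieAlgebra.ad k L x * LieAlgebra.ad k L w - LieAlgebra.ad k L w * LieAlgebra.ad k L x =
      LieAlgebra.ad k L h := by
  constructor
  · rw [ad_bracket, h2, map_smul]
    rw [two_mul, two_smul]
  · rw [ad_bracket, hh]

/-- `ad h` is diagonalizable with eigenvalues in `ℕ` on `ker (ad x)`; no eigenvalue `-2`. -/
theorem ker_eig {x w h : L} (hx : Nil k x) (hh : ⁅x, w⁆ = h) (h2 : ⁅h, x⁆ = (2 : k) • x) {z : L}
    (hz : ⁅x, z⁆ = 0) (hz2 : ⁅h, z⁆ = (-2 : k) • z) : z = 0 := by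
  obtain ⟨N, hN⟩ := hx
  obtain ⟨r1, r2⟩ := rel_of (k := k) hh h2
  obtain ⟨-, v', hv'⟩ := PR_mem r1 r2 0 N z z hz (by simp)
  rw [zero_add, hN, LinearMap.zero_apply, PR_eig (μ := (-2 : k)) hz2] at hv'
  rcases smul_eq_zero.1 hv'.symm with h3 | h3
  · exfalso
    rw [Finset.prod_eq_zero_iff] at h3
    obtain ⟨l, -, hl⟩ := h3
    have h4 : ((l + 2 : ℕ) : k) = 0 := by
      push_cast
      rw [zero_add] at hl
      linear_combination -hl
    exact (Nat.cast_ne_zero.2 (by omega : l + 2 ≠ 0)) h4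
  · exact h3

/-- **Jacobson–Morozov, homogeneous form**: if `w ∈ M`, `⁅x, ⁅x, w⁆⁆ = - 2 x` and `M` is stable
under `ad ⁅x, w⁆`, then `⁅x, w⁆, x` is completed to an `sl₂` triple by an element of `M`. -/
theorem jm_in {x w : L} (hx : Nil k x) (hx0 : x ≠ 0) (M : Submodule k L) (hw : w ∈ M)
    (h1 : ⁅x, ⁅x, w⁆⁆ = (-2 : k) • x) (hM : ∀ z ∈ M, ⁅⁅x, w⁆, z⁆ ∈ M) :
    ∃ y ∈ M, IsSl2Triple ⁅x, w⁆ x y := by
  obtain ⟨h, hh⟩ : ∃ h, ⁅x, w⁆ = h := ⟨_, rfl⟩
  have h2 : ⁅h, x⁆ = (2 : k) • x := by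
    rw [← lie_skew, ← hh, h1, neg_smul, neg_neg]
  set K : Submodule k L := M ⊓ LinearMap.ker (LieAlgebra.ad k L x) with hK
  have hKm : ∀ z, z ∈ K ↔ z ∈ M ∧ ⁅x, z⁆ = 0 := fun z => by
    rw [hK, Submodule.mem_inf, LinearMap.mem_ker]; rfl
  rw [hh] at hM
  let S : L →ₗ[k] L := LieAlgebra.ad k L h + (2 : k) • LinearMap.id
  have hS : ∀ z ∈ K, S z ∈ K := by
    intro z hz
    obtain ⟨hz1, hz2⟩ := (hKm z).1 hz
    rw [hKm]
    refine ⟨M.add_mem (hM z hz1) (M.smul_mem _ hz1), ?_⟩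
    show ⁅x, ⁅h, z⁆ + (2 : k) • z⁆ = 0
    rw [lie_add, lie_smul, hz2, smul_zero, add_zero]
    exact ker_stable h2 hz2
  have hinj : Function.Injective (S.restrict hS) := by
    rw [← LinearMap.ker_eq_bot, LinearMap.ker_eq_bot']
    intro z hz
    obtain ⟨hz1, hz2⟩ := (hKm z).1 z.2
    have h3 : ⁅h, (z : L)⁆ + (2 : k) • (z : L) = 0 := congrArg Subtype.val hz
    have h4 : ⁅h, (z : L)⁆ = (-2 : k) • (z : L) := by
      rw [neg_smul]; exact eq_neg_of_add_eq_zero_left h3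
    exact Subtype.ext (ker_eig hx hh h2 hz2 h4)
  have hsurj : Function.Surjective (S.restrict hS) := LinearMap.injective_iff_surjective.1 hinj
  have hu : ⁅h, w⁆ + (2 : k) • w ∈ K := by
    rw [hKm]
    refine ⟨M.add_mem (hM w hw) (M.smul_mem _ hw), ?_⟩
    have h3 : ⁅x, ⁅h, w⁆⁆ = ⁅⁅x, h⁆, w⁆ + ⁅h, ⁅x, w⁆⁆ := by rw [lie_lie]; abel
    rw [lie_add, lie_smul, h3, ← lie_skew x h, h2, neg_lie, smul_lie, hh, lie_self, add_zero,
      neg_add_cancel]
  obtain ⟨v, hv⟩ := hsurj ⟨_, hu⟩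
  have hv' : ⁅h, (v : L)⁆ + (2 : k) • (v : L) = ⁅h, w⁆ + (2 : k) • w := congrArg Subtype.val hv
  obtain ⟨hv1, hv2⟩ := (hKm v).1 v.2
  have hlie : ⁅h, w - (v : L)⁆ = -((2 : k) • (w - (v : L))) := by
    rw [lie_sub]
    have h5 : ⁅h, (v : L)⁆ = ⁅h, w⁆ + (2 : k) • w - (2 : k) • (v : L) := by rw [← hv']; abel
    rw [h5, smul_sub]; abel
  refine ⟨w - v, M.sub_mem hw hv1, ?_⟩
  rw [hh]
  refine ⟨?_, ?_, ?_, ?_⟩
  · rintro rfl
    rw [zero_lie] at h2
    exact hx0 ((smul_eq_zero.1 h2.symm).resolve_left two_ne_zero)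
  · rw [lie_sub, hv2, sub_zero, hh]
  · rw [h2, two_smul, two_nsmul]
  · rw [hlie, two_smul, two_nsmul]

/-- **Jacobson–Morozov.** -/
theorem jm [LieAlgebra.IsKilling k L] {x : L} (hx : Nil k x) (hx0 : x ≠ 0) :
    ∃ h y, IsSl2Triple h x y := by
  obtain ⟨w, hw⟩ := mem_range_sq hx
  obtain ⟨y, -, hy⟩ := jm_in hx hx0 ⊤ (w := (-2 : k) • w) Submodule.mem_top
    (by rw [lie_smul, lie_smul, hw]) (fun _ _ => Submodule.mem_top)
  exact ⟨_, y, hy⟩

end Vale.Agent.P092.H268.Rp
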