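import Vale.Agent.P092.H268.Rp.Spl

/-!
P092 (helper268), project RP, row P1, part 5: the space is spanned by the strings `Yⁱ z`, `X z = 0`,
`H z = n z`, `i ≤ n`.
-/

set_option linter.all false

open Module

namespace Vale.Agent.P092.H268.Rp

variable {k V : Type*} [Field k] [CharZero k] [AddCommGroup V] [Module k V]

namespace Tr

variable {X Y H : Module.End k V} (t : Tr X Y H)

include t

/-- a subspace which contains all strings is everything -/
theorem top_of_strings [Module.Finite k V] {S : Submodule k V}
    (hS : ∀ i n : ℕ, i ≤ n → ∀ z, X z = 0 → H z = (n : k) • z → (Y ^ i) z ∈ S) : S = ⊤ := by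
  obtain ⟨N, hN⟩ := t.nilX
  have key : ∀ i : ℕ, ∀ v, (X ^ i) v = 0 → v ∈ S := by
    intro i
    induction i with
    | zero => intro v hv; rw [pow_zero, Module.End.one_apply] at hv; rw [hv]; exact S.zero_mem
    | succ i ih =>
      intro v hv
      set u := (X ^ i) v with hu
      have hXu : X u = 0 := by rw [hu, ← Module.End.mul_apply, ← pow_succ']; exact hv
      have hker : ∀ z, X z = 0 → X (H z) = 0 := by
        intro z hz
        have := t.ap_hx z
        rw [hz, map_zero, smul_zero, add_zero] at this
        exact this.symm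
      have huQ : u ∈ S.map (X ^ i) := by
        refine mem_of_PR hker (i := i) ?_ N u hXu ?_
        · intro n hn z hz hHz
          have h1 := t.prim_pow hz hHz i
          have hc : (∏ j ∈ Finset.range i, (((j : k) + 1) * ((n : k) - j))) ≠ 0 := by
            rw [Finset.prod_ne_zero_iff]
            intro j hj
            have hj' := Finset.mem_range.1 hj
            refine mul_ne_zero ?_ ?_
            · exact_mod_cast (Nat.cast_ne_zero (R := k)).2 (Nat.succ_ne_zero j)
            · rw [sub_ne_zero]
              intro h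
              have := Nat.cast_injective h
              omega
          refine ⟨(∏ j ∈ Finset.range i, (((j : k) + 1) * ((n : k) - j)))⁻¹ • (Y ^ i) z, ?_, ?_⟩
          · exact S.smul_mem _ (hS i n hn z hz hHz)
          · rw [map_smul, h1, smul_smul, inv_mul_cancel₀ hc, one_smul]
        · obtain ⟨-, v', hv'⟩ := PR_mem t.hx t.xy i N u v hXu rfl
          rw [← hv', pow_add, hN, mul_zero, LinearMap.zero_apply]
      obtain ⟨s, hs, hsu⟩ := huQ
      have h2 : v - s ∈ S := ih _ (by rw [map_sub, hsu, ← hu, sub_self])
      have h3 : v = (v - s) + s := by abel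
      rw [h3]
      exact S.add_mem h2 hs
  rw [eq_top_iff]
  intro v _
  exact key N v (by rw [hN]; rfl)

/-- **the strings span** -/
theorem span_strings [Module.Finite k V] : Submodule.span k {v : V | ∃ (i n : ℕ) (z : V), i ≤ n ∧
    X z = 0 ∧ H z = (n : k) • z ∧ v = (Y ^ i) z} = ⊤ :=
  t.top_of_strings fun i n hi z hz hHz => Submodule.subset_span ⟨i, n, z, hi, hz, hHz, rfl⟩

/-- the string of a primitive vector of weight `n` has length `n + 1` -/
theorem pow_succ_eq_zero [Module.Finite k V] {n : ℕ} {z : V} (hz : X z = 0)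
    (hHz : H z = (n : k) • z) : (Y ^ (n + 1)) z = 0 := by
  by_contra hne
  have hX : X ((Y ^ (n + 1)) z) = 0 := by
    rw [t.prim hz hHz, sub_self, mul_zero, zero_smul]
  have hH := t.eigY_pow hHz (n + 1)
  obtain ⟨N, hN⟩ := t.nilX
  obtain ⟨-, v', hv'⟩ := PR_mem t.hx t.xy 0 N ((Y ^ (n + 1)) z) ((Y ^ (n + 1)) z) hX (by simp)
  rw [zero_add, hN, LinearMap.zero_apply, PR_eig hH] at hv'
  rcases smul_eq_zero.1 hv'.symm with h3 | h3
  · rw [Finset.prod_eq_zero_iff] at h3
    obtain ⟨l, -, hl⟩ := h3
    have h4 : ((n + 2 + l : ℕ) : k) = 0 := by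
      push_cast at hl ⊢
      rw [zero_add] at hl
      linear_combination -hl
    exact (Nat.cast_ne_zero.2 (by omega : n + 2 + l ≠ 0)) h4
  · exact hne h3

end Tr

end Vale.Agent.P092.H268.Rp
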