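import Mathlib

/-!
P092 (helper268), project RP, row P1, part 1: linear algebra of nilpotent operators.

* `isNilpotent_mul` : `A` nilpotent, `[A, [A, B]] = 0` ⟹ `A B` nilpotent.
* `key` : `[H, X] = 2 X`, `[X, W] = H` ⟹ `(n + 1) (H - n) Xⁿ = Xⁿ⁺¹ W - W Xⁿ⁺¹`.
* `mem_of_ker` : on `ker X` the operator `H` is diagonalizable with eigenvalues in `ℕ`.
* `Tr` : triples `[H, X] = 2 X`, `[H, Y] = - 2 Y`, `[X, Y] = H` of operators; `Tr.iSup_eq_top` :
  `H` is diagonalizable with integer eigenvalues if `X` is nilpotent.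
-/

set_option linter.all false

open Module

namespace Vale.Agent.P092.H268.Rp

section ring

variable {R : Type*} [Ring R]

/-- `Aⁿ B = B Aⁿ + n Aⁿ⁻¹ C` -/
theorem pow_mul_comm_of {A B C : R} (hC : A * B - B * A = C) (hAC : A * C = C * A) (n : ℕ) :
    A ^ (n + 1) * B = B * A ^ (n + 1) + ((n : R) + 1) * (A ^ n * C) := by
  have h1 : A * B = B * A + C := by rw [← hC]; noncomm_ring
  induction n with
  | zero => simp [h1]
  | succ n ih =>
    have hc : Commute (n : R) (A ^ n * C) := Nat.cast_commute _ _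
    calc A ^ (n + 1 + 1) * B = A * (A ^ (n + 1) * B) := by rw [pow_succ' A (n + 1), mul_assoc]
      _ = A * (B * A ^ (n + 1) + ((n : R) + 1) * (A ^ n * C)) := by rw [ih]
      _ = (A * B) * A ^ (n + 1) + ((n : R) + 1) * (A * (A ^ n * C)) := by
          have h3 : Commute A ((n : R) + 1) := (Nat.cast_commute n A).symm.add_right (Commute.one_right A)
          have : A * (((n : R) + 1) * (A ^ n * C)) = ((n : R) + 1) * (A * (A ^ n * C)) := by
            rw [← mul_assoc, h3.eq, mul_assoc]
          rw [mul_add, this]; noncomm_ring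
      _ = B * A ^ (n + 1 + 1) + ((((n + 1 : ℕ) : R)) + 1) * (A ^ (n + 1) * C) := by
          have h2 : C * A ^ (n + 1) = A ^ (n + 1) * C := by
            have : Commute A C := hAC
            exact (this.pow_left (n + 1)).eq.symm
          rw [h1, add_mul, h2, ← mul_assoc A (A ^ n) C, ← pow_succ' A n, pow_succ' A (n + 1)]
          push_cast
          noncomm_ring

/-- `X Hᵢ`: `Xⁿ H = (H - 2 n) Xⁿ` -/
theorem pow_mul_H {X H : R} (h : H * X - X * H = 2 * X) (n : ℕ) :
    X ^ n * H = (H - 2 * (n : R)) * X ^ n := by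
  have h1 : X * H = (H - 2) * X := by rw [sub_mul, ← h]; noncomm_ring
  induction n with
  | zero => simp
  | succ n ih =>
    have hc : X * (H - 2 * (n : R)) = (H - 2 * ((n : R) + 1)) * X := by
      rw [mul_sub, h1]
      have : X * (2 * (n : R)) = 2 * (n : R) * X := by
        have h3 : Commute X (n : R) := (Nat.cast_commute n X).symm
        have h4 : Commute X (2 : R) := (Nat.cast_commute 2 X).symm
        exact (h4.mul_right h3).eq
      rw [this]
      noncomm_ring
    rw [pow_succ', mul_assoc, ih, ← mul_assoc, hc, mul_assoc]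
    push_cast
    rfl

/-- **the key identity** -/
theorem key {X W H : R} (h : H * X - X * H = 2 * X) (hW : X * W - W * X = H) (n : ℕ) :
    X ^ (n + 1) * W - W * X ^ (n + 1) = ((n : R) + 1) * ((H - (n : R)) * X ^ n) := by
  induction n with
  | zero => simp [← hW]
  | succ n ih =>
    have h1 : X * W = W * X + H := by rw [← hW]; noncomm_ring
    have h2 := pow_mul_H h (n + 1)
    have e1 : X ^ (n + 1 + 1) * W = (X ^ (n + 1) * W) * X + X ^ (n + 1) * H := by
      rw [pow_succ X (n + 1), mul_assoc, h1]; noncomm_ring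
    have e2 : X ^ (n + 1) * W = W * X ^ (n + 1) + ((n : R) + 1) * ((H - (n : R)) * X ^ n) := by
      rw [← ih]; noncomm_ring
    rw [e1, e2, h2]
    have e3 : X ^ n * X = X ^ (n + 1) := (pow_succ X n).symm
    have e4 : (W * X ^ (n + 1) + ((n : R) + 1) * ((H - (n : R)) * X ^ n)) * X =
        W * X ^ (n + 1 + 1) + ((n : R) + 1) * ((H - (n : R)) * X ^ (n + 1)) := by
      rw [add_mul, mul_assoc W, ← pow_succ X (n + 1), mul_assoc, mul_assoc, e3]
    rw [e4]
    have hc1 : Commute (n : R) H := Nat.cast_commute _ _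
    have hc2 : (n : R) * H = H * (n : R) := hc1.eq
    push_cast
    have e5 : ((n : R) + 1) * ((H - (n : R)) * X ^ (n + 1)) +
        (H - 2 * ((n : R) + 1)) * X ^ (n + 1) =
        ((n : R) + 1 + 1) * ((H - ((n : R) + 1)) * X ^ (n + 1)) := by
      rw [← mul_assoc, ← mul_assoc, ← add_mul]
      congr 1
      rw [add_mul, add_mul, add_mul, one_mul, one_mul, mul_sub, mul_sub, hc2]
      noncomm_ring
    rw [← e5]
    noncomm_ring

end ring

section End

variable {k V : Type*} [Field k] [CharZero k] [AddCommGroup V] [Module k V]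

theorem nil_comm {A B C : Module.End k V} (hC : A * B - B * A = C) (hAC : A * C = C * A)
    (hA : IsNilpotent A) : IsNilpotent C := by
  obtain ⟨N, hN⟩ := hA
  have hcm : Commute A C := hAC
  have key : ∀ p, (∃ q, A ^ p * C ^ q = 0) → ∃ q, C ^ q = 0 := by
    intro p
    induction p with
    | zero => rintro ⟨q, hq⟩; exact ⟨q, by simpa using hq⟩
    | succ p ih =>
      rintro ⟨q, hq⟩
      refine ih ⟨q + 1 + q, ?_⟩
      have h1 := pow_mul_comm_of hC hAC p
      have hq' : C ^ q * A ^ (p + 1) = 0 := by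
        rw [((hcm.pow_pow (p + 1) q).eq).symm]; exact hq
      have h2 : C ^ q * (A ^ (p + 1) * B) * C ^ q = 0 := by
        rw [← mul_assoc, hq', zero_mul, zero_mul]
      rw [h1, mul_add, add_mul] at h2
      have h3 : C ^ q * (B * A ^ (p + 1)) * C ^ q = 0 := by
        rw [mul_assoc, mul_assoc B, hq, mul_zero, mul_zero]
      rw [h3, zero_add] at h2
      have h4 : C ^ q * ((((p : ℕ) : Module.End k V) + 1) * (A ^ p * C)) * C ^ q =
          ((p : k) + 1) • (A ^ p * C ^ (q + 1 + q)) := by
        have e1 : (((p : ℕ) : Module.End k V) + 1) * (A ^ p * C) = ((p : k) + 1) • (A ^ p * C) := by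
          rw [add_mul, one_mul, add_smul, one_smul]
          congr 1
          rw [← nsmul_eq_mul, Nat.cast_smul_eq_nsmul]
        rw [e1, mul_smul_comm, smul_mul_assoc]
        congr 1
        have e2 : C ^ q * A ^ p = A ^ p * C ^ q := (hcm.pow_pow p q).eq.symm
        rw [← mul_assoc, e2, mul_assoc, mul_assoc, pow_add, pow_add, pow_one]
        simp only [mul_assoc]
      rw [h4] at h2
      exact (smul_eq_zero.1 h2).resolve_left (by exact_mod_cast (Nat.cast_ne_zero (R := k)).2 (Nat.succ_ne_zero p))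
  exact key N ⟨0, by rw [hN, zero_mul]⟩

/-- **`A` nilpotent and `[A, [A, B]] = 0` imply that `A B` is nilpotent.** -/
theorem isNilpotent_mul {A B C : Module.End k V} (hC : A * B - B * A = C) (hAC : A * C = C * A)
    (hA : IsNilpotent A) : IsNilpotent (A * B) := by
  obtain ⟨q, hq⟩ := nil_comm hC hAC hA
  obtain ⟨N, hN⟩ := hA
  have hcm : Commute A C := hAC
  have hstar : ∀ i : ℕ, A ^ i * (A * B) = (B * A + ((i : Module.End k V) + 1) * C) * A ^ i := by
    intro i
    have h1 := pow_mul_comm_of hC hAC i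
    have h2 : A ^ i * C = C * A ^ i := (hcm.pow_left i).eq
    have h3 : (B * A + ((i : Module.End k V) + 1) * C) * A ^ i =
        B * A ^ (i + 1) + ((i : Module.End k V) + 1) * (C * A ^ i) := by
      rw [add_mul (B * A), mul_assoc B A, ← pow_succ', mul_assoc]
    rw [← mul_assoc, ← pow_succ, h1, h2, h3]
  have hstep : ∀ i z, (A ^ (i + 1)) z = 0 → ∀ j, (A ^ (i + 1)) (((A * B) ^ j) z) = 0 ∧
      (A ^ i) (((A * B) ^ j) z) = ((((i : Module.End k V) + 1) * C) ^ j) ((A ^ i) z) := by
    intro i z hz j
    induction j with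
    | zero => exact ⟨by simpa using hz, by simp⟩
    | succ j ih =>
      obtain ⟨h1, h2⟩ := ih
      have e : ((A * B) ^ (j + 1)) z = (A * B) (((A * B) ^ j) z) := by
        rw [pow_succ']; rfl
      have f : ∀ (l : ℕ) (u : V), (A ^ l) ((A * B) u) =
          (B * A + ((l : Module.End k V) + 1) * C) ((A ^ l) u) := by
        intro l u
        exact congrArg (fun T : Module.End k V => T u) (hstar l)
      refine ⟨?_, ?_⟩
      · rw [e, f, h1, map_zero]
      · rw [e, f, h2, LinearMap.add_apply, ← h2]
        have h3 : (B * A) ((A ^ i) (((A * B) ^ j) z)) = 0 := by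
          have : (B * A) ((A ^ i) (((A * B) ^ j) z)) = B ((A ^ (i + 1)) (((A * B) ^ j) z)) := by
            rw [pow_succ']; rfl
          rw [this, h1, map_zero]
        rw [h3, zero_add, h2, pow_succ' _ j]
        rfl
  have hfin : ∀ i, ∃ M, ∀ z, (A ^ i) z = 0 → ((A * B) ^ M) z = 0 := by
    intro i
    induction i with
    | zero => exact ⟨0, fun z hz => by simpa using hz⟩
    | succ i ih =>
      obtain ⟨M, hM⟩ := ih
      refine ⟨M + q, fun z hz => ?_⟩
      have h1 := (hstep i z hz q).2
      have h2 : (((i : Module.End k V) + 1) * C) ^ q = 0 := by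
        have hc : Commute ((i : Module.End k V) + 1) C :=
          (Nat.cast_commute i C).add_left (Commute.one_left C)
        rw [hc.mul_pow, hq, mul_zero]
      rw [h2, LinearMap.zero_apply] at h1
      rw [pow_add]
      exact hM _ h1
  obtain ⟨M, hM⟩ := hfin N
  refine ⟨M, LinearMap.ext fun z => hM z ?_⟩
  rw [hN]; rfl

/-- the projection `(H - i) (H - i - 1) ⋯ (H - i - j + 1) u` -/
def PR (H : Module.End k V) (i : ℕ) : ℕ → V → V
  | 0, u => u
  | j + 1, u => H (PR H i j u) - ((i + j : ℕ) : k) • PR H i j u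

theorem PR_sub (H : Module.End k V) (i j : ℕ) (u v : V) :
    PR H i j (u - v) = PR H i j u - PR H i j v := by
  induction j with
  | zero => rfl
  | succ j ih => simp only [PR, ih, map_sub, smul_sub]; abel

theorem PR_smul (H : Module.End k V) (i j : ℕ) (c : k) (u : V) :
    PR H i j (c • u) = c • PR H i j u := by
  induction j with
  | zero => rfl
  | succ j ih => simp only [PR, ih, map_smul, smul_sub]; rw [smul_comm]

theorem PR_eig {H : Module.End k V} {i : ℕ} {μ : k} {u : V} (hu : H u = μ • u) (j : ℕ) :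
    PR H i j u = (∏ l ∈ Finset.range j, (μ - ((i + l : ℕ) : k))) • u := by
  induction j with
  | zero => simp [PR]
  | succ j ih =>
    simp only [PR, ih, map_smul, hu]
    rw [Finset.prod_range_succ, mul_comm, mul_smul, sub_smul, smul_comm _ μ u]

/-- elements of `ker X ∩ im Xⁱ` which are killed by the product are sums of eigenvectors in
`ker X` -/
theorem mem_of_PR {H X : Module.End k V} (hX : ∀ u, X u = 0 → X (H u) = 0) {i : ℕ}
    {Q : Submodule k V} (hQ : ∀ n : ℕ, i ≤ n → ∀ u, X u = 0 → H u = (n : k) • u → u ∈ Q) (j : ℕ)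
    (u : V) (hu : X u = 0) (h : PR H i j u = 0) : u ∈ Q := by
  induction j generalizing u with
  | zero =>
    rw [PR] at h
    rw [h]; exact Q.zero_mem
  | succ j ih =>
    have hPX : ∀ l, X (PR H i l u) = 0 := by
      intro l
      induction l with
      | zero => exact hu
      | succ l ihl => simp only [PR, map_sub, map_smul, ihl, hX _ ihl, smul_zero, sub_zero]
    have he : H (PR H i j u) = ((i + j : ℕ) : k) • PR H i j u := sub_eq_zero.1 h
    set e := PR H i j u with hedef
    have heQ : e ∈ Q := hQ (i + j) (Nat.le_add_right _ _) e (hPX j) he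
    set c : k := ∏ l ∈ Finset.range j, (((i + j : ℕ) : k) - ((i + l : ℕ) : k)) with hc
    have hc0 : c ≠ 0 := by
      rw [hc, Finset.prod_ne_zero_iff]
      intro l hl
      rw [sub_ne_zero]
      intro h
      have := Nat.cast_injective h
      have := Finset.mem_range.1 hl
      omega
    have h1 : PR H i j (u - c⁻¹ • e) = 0 := by
      rw [PR_sub, PR_smul, PR_eig he, ← hc, smul_smul, inv_mul_cancel₀ hc0, one_smul, ← hedef,
        sub_self]
    have h2 : X (u - c⁻¹ • e) = 0 := by
      rw [map_sub, map_smul, hu, hPX j, smul_zero, sub_zero]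
    have h3 := ih (u - c⁻¹ • e) h2 h1
    have : u = (u - c⁻¹ • e) + c⁻¹ • e := by abel
    rw [this]
    exact Q.add_mem h3 (Q.smul_mem _ heQ)

/-- **On `ker X ∩ im Xⁱ` the product of `H - n`, `i ≤ n < i + j`, has values in `im Xⁱ⁺ʲ`.** -/
theorem PR_mem {X W H : Module.End k V} (h : H * X - X * H = 2 * X) (hW : X * W - W * X = H)
    (i j : ℕ) (u v : V) (hu : X u = 0) (hv : (X ^ i) v = u) :
    X (PR H i j u) = 0 ∧ ∃ v', (X ^ (i + j)) v' = PR H i j u := by
  induction j with
  | zero => exact ⟨hu, v, hv⟩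
  | succ j ih =>
    obtain ⟨h1, v', hv'⟩ := ih
    have hX : ∀ z, X z = 0 → X (H z) = 0 := by
      intro z hz
      have h2 : X * H = H * X - 2 * X := by rw [← h]; noncomm_ring
      have h3 : X (H z) = (X * H) z := rfl
      rw [h3, h2, LinearMap.sub_apply, Module.End.mul_apply, Module.End.mul_apply, hz, map_zero,
        map_zero, sub_zero]
    refine ⟨by simp only [PR, map_sub, map_smul, h1, hX _ h1, smul_zero, sub_zero], ?_⟩
    have hk := congrArg (fun T : Module.End k V => T v') (key h hW (i + j))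
    simp only [LinearMap.sub_apply, Module.End.mul_apply] at hk
    have h0 : (X ^ (i + j + 1)) v' = 0 := by
      rw [pow_succ', Module.End.mul_apply, hv', h1]
    rw [h0, map_zero, sub_zero, hv'] at hk
    have hne : ((i + j : ℕ) : k) + 1 ≠ 0 := by
      exact_mod_cast (Nat.cast_ne_zero (R := k)).2 (Nat.succ_ne_zero (i + j))
    refine ⟨(((i + j : ℕ) : k) + 1)⁻¹ • W v', ?_⟩
    rw [← add_assoc, map_smul, hk]
    have hcast : ∀ (m : ℕ) (z : V), ((m : Module.End k V)) z = (m : k) • z := by
      intro m z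
      rw [Module.End.natCast_apply, Nat.cast_smul_eq_nsmul]
    have h5 : (((i + j : ℕ) : Module.End k V) + 1) (H (PR H i j u) -
        ((i + j : ℕ) : Module.End k V) (PR H i j u)) =
        (((i + j : ℕ) : k) + 1) • (H (PR H i j u) - ((i + j : ℕ) : k) • PR H i j u) := by
      rw [LinearMap.add_apply, hcast, Module.End.one_apply, hcast, add_smul, one_smul]
    rw [h5, smul_smul, inv_mul_cancel₀ hne, one_smul]
    rfl

end End

end Vale.Agent.P092.H268.Rp
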